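import Vale.Agent.Lib.P238.EditDistance
import Vale.Agent.Lib.P238.Pentagon

namespace Vale.Agent.Results.P238.FiveFourths

open Vale.Agent.Lib.P238

/-- For every `n ≥ 4`, every embedding of the binary words of length `n` with the edit
distance into `ℓ_1` has distortion at least `5/4`. -/
theorem result (n : ℕ) (hn : 4 ≤ n) (f : List Bool → lp (fun _ : ℕ => ℝ) 1) (A B : ℝ)
    (hA : ∀ x y : List Bool, x.length = n → y.length = n →
      ‖f x - f y‖ ≤ A * (ed x y : ℝ))
    (hB : ∀ x y : List Bool, x.length = n → y.length = n →
      (ed x y : ℝ) ≤ B * ‖f x - f y‖) :
    5 / 4 ≤ A * B := by
  obtain ⟨k, rfl⟩ : ∃ k, n = k + 4 := ⟨n - 4, by omega⟩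
  have len : ∀ v : List Bool, v.length = 4 → (List.replicate k false ++ v).length = k + 4 := by
    intro v hv
    simp [hv]
  have e : ∀ u v : List Bool,
      ed (List.replicate k false ++ u) (List.replicate k false ++ v) = ed u v :=
    fun u v => ed_append_left _ u v
  -- the five words
  have hp := len [false, false, false, true] rfl
  have hs := len [false, true, true, true] rfl
  have ht := len [true, false, true, false] rfl
  have hq := len [false, false, true, true] rfl
  have hr := len [false, true, false, true] rfl
  have c1 : ed [false, false, false, true] [false, true, true, true] = 2 := by simp [ed]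
  have c2 : ed [false, false, false, true] [true, false, true, false] = 3 := by simp [ed]
  have c3 : ed [false, true, true, true] [true, false, true, false] = 3 := by simp [ed]
  have c4 : ed [false, false, true, true] [false, true, false, true] = 2 := by simp [ed]
  have d1 : ed [false, false, false, true] [false, false, true, true] = 1 := by simp [ed]
  have d2 : ed [false, false, false, true] [false, true, false, true] = 1 := by simp [ed]
  have d3 : ed [false, true, true, true] [false, false, true, true] = 1 := by simp [ed]
  have d4 : ed [false, true, true, true] [false, true, false, true] = 1 := by simp [ed]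
  have d5 : ed [true, false, true, false] [false, false, true, true] = 2 := by simp [ed]
  have d6 : ed [true, false, true, false] [false, true, false, true] = 2 := by simp [ed]
  have B1 := hB _ _ hp hs
  have B2 := hB _ _ hp ht
  have B3 := hB _ _ hs ht
  have B4 := hB _ _ hq hr
  have A1 := hA _ _ hp hq
  have A2 := hA _ _ hp hr
  have A3 := hA _ _ hs hq
  have A4 := hA _ _ hs hr
  have A5 := hA _ _ ht hq
  have A6 := hA _ _ ht hr
  rw [e, c1] at B1
  rw [e, c2] at B2
  rw [e, c3] at B3
  rw [e, c4] at B4
  rw [e, d1] at A1
  rw [e, d2] at A2
  rw [e, d3] at A3
  rw [e, d4] at A4
  rw [e, d5] at A5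
  rw [e, d6] at A6
  have pent := pentagon_l1
    (f (List.replicate k false ++ [false, false, false, true]))
    (f (List.replicate k false ++ [false, true, true, true]))
    (f (List.replicate k false ++ [true, false, true, false]))
    (f (List.replicate k false ++ [false, false, true, true]))
    (f (List.replicate k false ++ [false, true, false, true]))
  have hBpos : 0 < B := by
    by_contra hneg
    have hB0 : B ≤ 0 := not_lt.mp hneg
    have := mul_nonpos_of_nonpos_of_nonneg hB0
      (norm_nonneg (f (List.replicate k false ++ [false, false, false, true]) -
        f (List.replicate k false ++ [false, true, true, true])))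
    push_cast at B1
    linarith
  push_cast at B1 B2 B3 B4 A1 A2 A3 A4 A5 A6
  -- abbreviations for the ten norms
  generalize ‖f (List.replicate k false ++ [false, false, false, true]) -
    f (List.replicate k false ++ [false, true, true, true])‖ = n1 at *
  generalize ‖f (List.replicate k false ++ [false, false, false, true]) -
    f (List.replicate k false ++ [true, false, true, false])‖ = n2 at *
  generalize ‖f (List.replicate k false ++ [false, true, true, true]) -
    f (List.replicate k false ++ [true, false, true, false])‖ = n3 at *
  generalize ‖f (List.replicate k false ++ [false, false, true, true]) -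
    f (List.replicate k false ++ [false, true, false, true])‖ = n4 at *
  generalize ‖f (List.replicate k false ++ [false, false, false, true]) -
    f (List.replicate k false ++ [false, false, true, true])‖ = m1 at *
  generalize ‖f (List.replicate k false ++ [false, false, false, true]) -
    f (List.replicate k false ++ [false, true, false, true])‖ = m2 at *
  generalize ‖f (List.replicate k false ++ [false, true, true, true]) -
    f (List.replicate k false ++ [false, false, true, true])‖ = m3 at *
  generalize ‖f (List.replicate k false ++ [false, true, true, true]) -
    f (List.replicate k false ++ [false, true, false, true])‖ = m4 at *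
  generalize ‖f (List.replicate k false ++ [true, false, true, false]) -
    f (List.replicate k false ++ [false, false, true, true])‖ = m5 at *
  generalize ‖f (List.replicate k false ++ [true, false, true, false]) -
    f (List.replicate k false ++ [false, true, false, true])‖ = m6 at *
  -- 10 ≤ B * (n1 + n2 + n3 + n4) ≤ B * (m1 + ... + m6) ≤ B * (A * 8)
  have h1 : (10 : ℝ) ≤ B * (n1 + n2 + n3 + n4) := by linarith
  have h2 : B * (n1 + n2 + n3 + n4) ≤ B * (m1 + m2 + m3 + m4 + m5 + m6) :=
    mul_le_mul_of_nonneg_left pent hBpos.le
  have h3 : B * (m1 + m2 + m3 + m4 + m5 + m6) ≤ B * (A * 8) :=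
    mul_le_mul_of_nonneg_left (by linarith) hBpos.le
  nlinarith

end Vale.Agent.Results.P238.FiveFourths
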